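import Vale.Agent.P284.H366.G.S
import Vale.Agent.P284.H174.GoodD

/-!
# P284 (helper366), module G2b: representations and tangent vectors
-/

open scoped Manifold ContDiff Topology InnerProductSpace ComplexConjugate
open Filter Set Metric

noncomputable section

set_option linter.unusedSectionVars false

namespace Vale.Agent.P284.H366.GB

open Vale.Agent.P272.K Vale.Agent.P284.H573 Vale.Agent.P284.H619 Vale.Agent.P284.H894
  Vale.Agent.P284.H894.G

section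
variable {n R m : ℕ} {X E H : Type} [TopologicalSpace X] [ChartedSpace (Cm n) X]
  [TopologicalSpace E] [NormedAddCommGroup H] [InnerProductSpace ℂ H]
  {p : E → X} {v : E → Chart n X → (Fin R → Cm n) → H} {z : E} {e e' : Chart n X}
  {D D' : Cm n → (Fin R → Cm n) → ℂ} {G G' : Cm n → H} {t t' : (Fin R → Cm n) → H}

lemma RepV.v_ne (h : RepV p v z e D G) : ∃ ξ, D (e (p z)) ξ ≠ 0 ∧ v z e ξ ≠ 0 := by
  obtain ⟨ξ, hξ⟩ := h.D0
  refine ⟨ξ, hξ, ?_⟩
  rw [h.eq.self_of_nhds ξ]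
  exact smul_ne_zero hξ h.G0

lemma v_ne_near (hp : IsCoveringMap p) (hv : HForm n R m p H v) (he : At e (p z))
    {ξ : Fin R → Cm n} (h : v z e ξ ≠ 0) : ∀ᶠ y in 𝓝 z, v y e ξ ≠ 0 := by
  obtain ⟨F, hF, hev⟩ := hv.hol z e he
  have h1 : AnalyticAt ℂ (fun w => F (w, ξ)) (e (p z)) :=
    AnalyticAt.fun_comp (f := fun z : Cm n => ((z, ξ) : Cm n × (Fin R → Cm n))) (hF ξ)
      (analyticAt_id.prod analyticAt_const)
  have h2 : F (e (p z), ξ) ≠ 0 := by rw [← hev.self_of_nhds ξ]; exact h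
  have h3 : ∀ᶠ w in 𝓝 (e (p z)), F (w, ξ) ≠ 0 := h1.continuousAt.eventually_ne h2
  filter_upwards [hev, (ev_iff hp he).2 h3] with y h4 h5
  rw [h4 ξ]
  exact h5

/-- comparison of two representations -/
theorem RepV.cmp (hp : IsCoveringMap p) (hv : HForm n R m p H v) (h : RepV p v z e D G)
    (h' : RepV p v z e D' G') : ∃ f : Cm n → ℂ, AnalyticAt ℂ f (e (p z)) ∧
      (∀ᶠ w in 𝓝 (e (p z)), G' w = f w • G w) ∧
      ∀ ξ, D (e (p z)) ξ = f (e (p z)) * D' (e (p z)) ξ := by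
  set w₀ := e (p z) with hw₀
  have hinn : AnalyticAt ℂ (fun w => ⟪G w₀, G w⟫_ℂ) w₀ :=
    ((innerSL ℂ (G w₀)).analyticAt _).comp h.Gan
  have hinn' : AnalyticAt ℂ (fun w => ⟪G w₀, G' w⟫_ℂ) w₀ :=
    ((innerSL ℂ (G w₀)).analyticAt _).comp h'.Gan
  have hne : ⟪G w₀, G w₀⟫_ℂ ≠ 0 := inner_self_ne_zero.2 h.G0
  obtain ⟨ξ₀, hξ₀, hvξ⟩ := h'.v_ne
  have hQ : ∀ᶠ w in 𝓝 w₀, D w ξ₀ • G w ≠ 0 ∧ ∀ ξ, D w ξ • G w = D' w ξ • G' w := by
    rw [← ev_iff hp h.mem]
    filter_upwards [v_ne_near hp hv h.mem hvξ, h.eq, h'.eq] with y k1 k2 k3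
    exact ⟨by rw [← k2 ξ₀]; exact k1, fun ξ => by rw [← k2 ξ, ← k3 ξ]⟩
  have hG : ∀ᶠ w in 𝓝 w₀, G' w = (⟪G w₀, G' w⟫_ℂ / ⟪G w₀, G w⟫_ℂ) • G w := by
    filter_upwards [hQ, hinn.continuousAt.eventually_ne hne] with w k1 k2
    have k3 : D' w ξ₀ ≠ 0 := by
      intro h0
      have := k1.2 ξ₀
      rw [h0, zero_smul] at this
      exact k1.1 this
    have k4 : G' w = (D w ξ₀ / D' w ξ₀) • G w := by
      rw [div_eq_inv_mul, mul_smul, k1.2 ξ₀, smul_smul, inv_mul_cancel₀ k3, one_smul]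
    have k5 : ⟪G w₀, G' w⟫_ℂ = (D w ξ₀ / D' w ξ₀) * ⟪G w₀, G w⟫_ℂ := by
      rw [k4, inner_smul_right]
    rw [k5, mul_div_cancel_right₀ _ k2, ← k4]
  refine ⟨fun w => ⟪G w₀, G' w⟫_ℂ / ⟪G w₀, G w⟫_ℂ, hinn'.div hinn hne, hG, fun ξ => ?_⟩
  have k1 := hQ.self_of_nhds.2 ξ
  rw [hG.self_of_nhds, smul_smul] at k1
  have k2 := sub_eq_zero.2 k1
  rw [← sub_smul, smul_eq_zero] at k2
  rcases k2 with k2 | k2
  · rw [sub_eq_zero.1 k2, mul_comm]
  · exact absurd k2 h.G0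

/-- a tangent vector can be written in every representation -/
theorem TanV.rebase (hp : IsCoveringMap p) (hv : HForm n R m p H v) (ht : TanV p v z e t)
    (h : RepV p v z e D G) : ∃ (η : Cm n) (l : ℂ), ∀ ξ,
      t ξ = D (e (p z)) ξ • (fderiv ℂ G (e (p z)) η + l • G (e (p z))) := by
  obtain ⟨D', G', h', η', l', ht'⟩ := ht
  obtain ⟨f, hf, hG, hD⟩ := h.cmp hp hv h'
  set w₀ := e (p z) with hw₀
  have hf0 : f w₀ ≠ 0 := by
    obtain ⟨ξ, hξ⟩ := h.D0
    intro h0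
    rw [hD ξ, h0, zero_mul] at hξ
    exact hξ rfl
  have hd : fderiv ℂ G' w₀ η' = f w₀ • fderiv ℂ G w₀ η' + (fderiv ℂ f w₀ η') • G w₀ := by
    have h1 : fderiv ℂ G' w₀ = fderiv ℂ (fun w => f w • G w) w₀ :=
      Filter.EventuallyEq.fderiv_eq hG
    rw [h1, fderiv_fun_smul hf.differentiableAt h.Gan.differentiableAt]
    rfl
  refine ⟨η', fderiv ℂ f w₀ η' / f w₀ + l', fun ξ => ?_⟩
  rw [ht' ξ, hd, hG.self_of_nhds, hD ξ]
  simp only [smul_add, add_smul, smul_smul]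
  rw [add_assoc]
  congr 1
  · congr 1; ring
  · congr 1
    · congr 1; field_simp
    · congr 1; ring

/-- a representation at `z` is one at all nearby points -/
theorem RepV.near [CompleteSpace H] (hp : IsCoveringMap p) (hv : HForm n R m p H v) (h : RepV p v z e D G) :
    ∀ᶠ y in 𝓝 z, RepV p v y e D G := by
  obtain ⟨ξ₀, -, hvξ⟩ := h.v_ne
  filter_upwards [at_ev hp h.mem, (ev_iff hp h.mem).2 h.Gan.eventually_analyticAt,
    (ev_iff hp h.mem).2 (h.Gan.continuousAt.eventually_ne h.G0), v_ne_near hp hv h.mem hvξ,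
    h.eq.eventually_nhds] with y k1 k2 k3 k4 k5
  refine ⟨k1, k2, k3, ⟨ξ₀, fun h0 => k4 ?_⟩, k5⟩
  rw [k5.self_of_nhds ξ₀, h0, zero_smul]

/-- functionals which vanish on `v` vanish on the tangent vectors -/
theorem TanV.ker (hp : IsCoveringMap p) (hv : HForm n R m p H v) (ht : TanV p v z e t)
    {F : Type*} [NormedAddCommGroup F] [NormedSpace ℂ F] (C : H →L[ℂ] F)
    (hC : ∀ᶠ y in 𝓝 z, ∀ ξ, C (v y e ξ) = 0) (ξ : Fin R → Cm n) : C (t ξ) = 0 := by
  obtain ⟨D, G, h, η, l, ht⟩ := ht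
  set w₀ := e (p z) with hw₀
  obtain ⟨ξ₀, -, hvξ⟩ := h.v_ne
  have h1 : ∀ᶠ w in 𝓝 w₀, C (G w) = 0 := by
    rw [← ev_iff hp h.mem]
    filter_upwards [hC, h.eq, v_ne_near hp hv h.mem hvξ] with y k1 k2 k3
    have k4 := k1 ξ₀
    rw [k2 ξ₀, map_smul, smul_eq_zero] at k4
    rcases k4 with k4 | k4
    · exact absurd (by rw [k2 ξ₀, k4, zero_smul]) k3
    · exact k4
  have h2 : C (fderiv ℂ G w₀ η) = 0 := by
    have h3 : fderiv ℂ (fun w => C (G w)) w₀ = C.comp (fderiv ℂ G w₀) :=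
      (C.hasFDerivAt.comp w₀ h.Gan.differentiableAt.hasFDerivAt).fderiv
    have h4 : fderiv ℂ (fun w => C (G w)) w₀ = 0 := by
      have h5 : (fun w => C (G w)) =ᶠ[𝓝 w₀] fun _ => 0 := h1
      rw [h5.fderiv_eq]
      simp
    have h6 := congrArg (fun L : Cm n →L[ℂ] F => L η) (h3.symm.trans h4)
    exact h6
  rw [ht ξ, map_smul, map_add, map_smul, h2, h1.self_of_nhds, smul_zero, add_zero, smul_zero]

section
variable [IsManifold 𝓘(ℂ, Cm n) ω X]

lemma tr_surj (he : At e (p z)) (he' : At e' (p z)) :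
    Function.Surjective (fderiv ℂ (fun z => e' (e.symm z)) (e (p z))) := by
  have h2 : AnalyticAt ℂ (fun z => e' (e.symm z)) (e (p z)) := (transition he he').analyticAt
  intro u
  refine ⟨fderiv ℂ (fun z => e (e'.symm z)) (e' (p z)) u, ?_⟩
  have a2 : AnalyticAt ℂ (fun z => e (e'.symm z)) (e' (p z)) := (transition he' he).analyticAt
  have a3 : e (e'.symm (e' (p z))) = e (p z) := by rw [he'.left_inv]
  have a4 := fderiv_comp (𝕜 := ℂ) (e' (p z)) (g := fun z => e' (e.symm z))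
    (f := fun z => e (e'.symm z)) (by rw [a3]; exact h2.differentiableAt) a2.differentiableAt
  rw [a3] at a4
  have a5 : ((fun z => e' (e.symm z)) ∘ fun z => e (e'.symm z)) =ᶠ[𝓝 (e' (p z))] id := by
    have h8 : ∀ᶠ w in 𝓝 (e' (p z)), w ∈ e'.target ∧ e'.symm w ∈ e.source := by
      have b1 := e'.open_target.mem_nhds (e'.map_source he'.2)
      have b2 : ContinuousAt e'.symm (e' (p z)) := e'.continuousAt_symm (e'.map_source he'.2)
      have b3 : e.source ∈ 𝓝 (e'.symm (e' (p z))) := by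
        rw [e'.left_inv he'.2]
        exact e.open_source.mem_nhds he.2
      filter_upwards [b1, b2.eventually_mem b3] with w c1 c2 using ⟨c1, c2⟩
    filter_upwards [h8] with w hw
    show e' (e.symm (e (e'.symm w))) = w
    rw [e.left_inv hw.2, e'.right_inv hw.1]
  rw [a5.fderiv_eq, fderiv_id] at a4
  exact (congrArg (fun L : Cm n →L[ℂ] Cm n => L u) a4).symm

/-- representations in other charts -/
theorem RepV.change (hp : IsCoveringMap p) (hv : HForm n R m p H v) (h : RepV p v z e D G)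
    (he' : At e' (p z)) : RepV p v z e'
      (fun w' ξ' => D (e (e'.symm w')) fun i => fderiv ℂ (fun w => e (e'.symm w)) w' (ξ' i))
      (fun w' => G (e (e'.symm w'))) := by
  have h3 : e (e'.symm (e' (p z))) = e (p z) := by rw [he'.left_inv]
  refine ⟨he', ?_, ?_, ?_, ?_⟩
  · exact AnalyticAt.fun_comp (f := fun w' => e (e'.symm w')) (by rw [h3]; exact h.Gan)
      (transition he' h.mem).analyticAt
  · rw [h3]
    exact h.G0
  · obtain ⟨ξ₀, hξ₀⟩ := h.D0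
    choose ξ' hξ' using fun i => tr_surj he' h.mem (ξ₀ i)
    refine ⟨ξ', ?_⟩
    simp only [hξ']
    rw [h3]
    exact hξ₀
  · filter_upwards [h.eq, at_ev hp h.mem, at_ev hp he'] with y k1 k2 k3 ξ
    rw [hv.change y e' e k3 k2, k1]
    have h4 : e (e'.symm (e' (p y))) = e (p y) := by rw [k3.left_inv]
    rw [h4]

/-- tangent vectors in other charts -/
theorem TanV.change (hp : IsCoveringMap p) (hv : HForm n R m p H v) (ht : TanV p v z e t)
    (he' : At e' (p z))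
    (htt : ∀ ξ, t' ξ = t fun i => fderiv ℂ (fun w => e (e'.symm w)) (e' (p z)) (ξ i)) :
    TanV p v z e' t' := by
  obtain ⟨D, G, h, η, l, ht⟩ := ht
  obtain ⟨η', hη'⟩ := tr_surj he' h.mem η
  refine ⟨_, _, h.change hp hv he', η', l, fun ξ => ?_⟩
  have h3 : e (e'.symm (e' (p z))) = e (p z) := by rw [he'.left_inv]
  have h6 := fderiv_comp (𝕜 := ℂ) (e' (p z)) (g := G) (f := fun w => e (e'.symm w))
    (by rw [h3]; exact h.Gan.differentiableAt) (transition he' h.mem).analyticAt.differentiableAt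
  rw [h3] at h6
  have h7 : fderiv ℂ (fun w' => G (e (e'.symm w'))) (e' (p z)) η' = fderiv ℂ G (e (p z)) η := by
    have h8 : (fun w' => G (e (e'.symm w'))) = G ∘ fun w => e (e'.symm w) := rfl
    rw [h8, h6, ContinuousLinearMap.comp_apply, hη']
  rw [htt ξ, ht, h7, h3]

end

end

section
variable {n R m : ℕ} {X E Γ H : Type} [TopologicalSpace X] [ChartedSpace (Cm n) X]
  [TopologicalSpace E] [Group Γ] [MulAction Γ E] [NormedAddCommGroup H] [InnerProductSpace ℂ H]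
  {p : E → X} {v : E → Chart n X → (Fin R → Cm n) → H} {z : E} {e : Chart n X}
  {D : Cm n → (Fin R → Cm n) → ℂ} {G : Cm n → H} {t : (Fin R → Cm n) → H} {U : Γ → (H →ₗᵢ[ℂ] H)}

lemma p_smul (hG : IsGalois Γ p) (g : Γ) (y : E) : p (g • y) = p y :=
  ((hG.orb y (g • y)).2 ⟨g, rfl⟩).symm

theorem RepV.smul (hG : IsGalois Γ p)
    (heq : ∀ (g : Γ) y e, At e (p y) → ∀ ξ, v (g • y) e ξ = U g (v y e ξ)) (g : Γ)
    (h : RepV p v z e D G) : RepV p v (g • z) e D (fun w => U g (G w)) := by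
  have hpz := p_smul hG g z
  refine ⟨by rw [hpz]; exact h.mem, ?_, ?_, ?_, ?_⟩
  · rw [hpz]
    exact ((U g).toContinuousLinearMap.analyticAt _).comp h.Gan
  · rw [hpz]
    intro h0
    exact h.G0 ((map_eq_zero_iff _ (U g).injective).1 h0)
  · rw [hpz]
    exact h.D0
  · have h1 : Tendsto (fun y => g⁻¹ • y) (𝓝 (g • z)) (𝓝 z) := by
      have := (hG.cont g⁻¹).tendsto (g • z)
      rwa [inv_smul_smul] at this
    filter_upwards [h1.eventually h.eq, h1.eventually (at_ev hG.cov h.mem)] with y k1 k2 ξ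
    have k3 := heq g (g⁻¹ • y) e k2 ξ
    rw [smul_inv_smul, k1 ξ, map_smul, p_smul hG] at k3
    exact k3

theorem TanV.smul (hG : IsGalois Γ p)
    (heq : ∀ (g : Γ) y e, At e (p y) → ∀ ξ, v (g • y) e ξ = U g (v y e ξ)) (g : Γ)
    (ht : TanV p v z e t) : TanV p v (g • z) e fun ξ => U g (t ξ) := by
  obtain ⟨D, G, h, η, l, ht⟩ := ht
  refine ⟨D, _, h.smul hG heq g, η, l, fun ξ => ?_⟩
  show U g (t ξ) = _
  rw [p_smul hG, ht ξ, map_smul, map_add, map_smul]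
  congr 2
  have h3 : fderiv ℂ (fun w => U g (G w)) (e (p z)) =
      (U g).toContinuousLinearMap.comp (fderiv ℂ G (e (p z))) :=
    ((U g).toContinuousLinearMap.hasFDerivAt.comp (e (p z))
      h.Gan.differentiableAt.hasFDerivAt).fderiv
  rw [h3]
  rfl

end

/-- **identity theorem** -/
theorem ident {n R m : ℕ} {X E H : Type} [TopologicalSpace X] [ChartedSpace (Cm n) X]
    [IsManifold 𝓘(ℂ, Cm n) ω X] [TopologicalSpace E] [PreconnectedSpace E] [NormedAddCommGroup H]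
    [InnerProductSpace ℂ H] [CompleteSpace H] {p : E → X}
    {v : E → Chart n X → (Fin R → Cm n) → H} (hp : IsCoveringMap p) (hv : HForm n R m p H v)
    {F : Type*} [NormedAddCommGroup F] [NormedSpace ℂ F] (C : H →L[ℂ] F) {y₀ : E}
    (h0 : ∀ᶠ y in 𝓝 y₀, ∀ e, At e (p y) → ∀ ξ, C (v y e ξ) = 0) :
    ∀ y e, At e (p y) → ∀ ξ, C (v y e ξ) = 0 := by
  have hchg : ∀ (y' : E) (e e' : Chart n X), At e (p y') → At e' (p y') →
      (∀ ξ, C (v y' e ξ) = 0) → ∀ ξ, C (v y' e' ξ) = 0 := by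
    intro y' e e' h1 h2 h3 ξ
    rw [hv.change y' e' e h2 h1]
    exact h3 _
  set Q : Set E := {y | ∀ᶠ y' in 𝓝 y, ∀ e, At e (p y') → ∀ ξ, C (v y' e ξ) = 0} with hQ
  have hQo : IsOpen Q := isOpen_iff_mem_nhds.2 fun y hy => hy.eventually_nhds
  have hQc : IsClosed Q := by
    rw [← closure_subset_iff_isClosed]
    intro y₁ hy₁
    set e := chartAt (Cm n) (p y₁) with he_def
    have he : At e (p y₁) := ⟨chart_mem_atlas _ _, mem_chart_source _ _⟩
    obtain ⟨ε, hε, f, hf, hfe⟩ := Vale.Agent.P284.H174.GD.exists_fam hv hp he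
    set B := ball (e (p y₁)) ε with hB
    have hBc : IsPreconnected B := (convex_ball _ _).isPreconnected
    have hall : ∀ᶠ y' in 𝓝 y₁, At e (p y') ∧ e (p y') ∈ B ∧
        ∀ ξ, v y' e ξ = f ξ (e (p y')) := by
      filter_upwards [at_ev hp he, (tendsto_ep hp he).eventually_mem
        (ball_mem_nhds _ hε), hfe] with y' k1 k2 k3 using ⟨k1, k2, k3⟩
    obtain ⟨V, hV, hVo, hyV⟩ := _root_.eventually_nhds_iff.1 hall
    obtain ⟨y₂, h2V, h2Q⟩ := mem_closure_iff.1 hy₁ V hVo hyV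
    have hz : ∀ ξ, EqOn (fun z => C (f ξ z)) 0 B := by
      intro ξ
      refine AnalyticOnNhd.eqOn_zero_of_preconnected_of_eventuallyEq_zero (𝕜 := ℂ) ?_ hBc
        (hV y₂ h2V).2.1 ?_
      · intro z hz
        exact (C.analyticAt _).comp (hf ξ z hz)
      · show ∀ᶠ z in 𝓝 (e (p y₂)), _
        rw [← ev_iff hp (hV y₂ h2V).1]
        filter_upwards [h2Q, hVo.mem_nhds h2V] with y' k1 k2
        have k3 := k1 e (hV y' k2).1 ξ
        rw [(hV y' k2).2.2] at k3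
        exact k3
    show ∀ᶠ y' in 𝓝 y₁, _
    filter_upwards [hVo.mem_nhds hyV] with y' h3 e' he' ξ
    refine hchg y' e e' (hV y' h3).1 he' (fun ξ => ?_) ξ
    rw [(hV y' h3).2.2]
    exact hz ξ (hV y' h3).2.1
  intro y e he ξ
  have hQu : Q = univ := IsClopen.eq_univ ⟨hQc, hQo⟩ ⟨y₀, h0⟩
  have : y ∈ Q := hQu ▸ mem_univ y
  exact this.self_of_nhds e he ξ

end Vale.Agent.P284.H366.GB
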