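import Vale.Agent.P284.H366.G.L1

/-!
# P284 (helper366), module G2b: the space of deformations and the action of the group
-/

open scoped Manifold ContDiff Topology InnerProductSpace ComplexConjugate
open Filter Set Metric

noncomputable section

set_option linter.unusedSectionVars false

namespace Vale.Agent.P284.H366.GB

open Vale.Agent.P272.K Vale.Agent.P284.H573 Vale.Agent.P284.H619 Vale.Agent.P284.H894
  Vale.Agent.P284.H894.G

section
variable {n R m : ℕ} {X E H : Type} [TopologicalSpace X] [ChartedSpace (Cm n) X]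
  [IsManifold 𝓘(ℂ, Cm n) ω X] [TopologicalSpace E] [NormedAddCommGroup H] [InnerProductSpace ℂ H]
  {p : E → X} {v : E → Chart n X → (Fin R → Cm n) → H} {𝒢 : Set E}

/-- the space of the deformations of `v` over `𝒢` -/
def defSub (hp : IsCoveringMap p) (hv : HForm n R m p H v)
    (hrep : ∀ z ∈ 𝒢, ∃ e D G, RepV p v z e D G) :
    Submodule ℝ (E → Chart n X → (Fin R → Cm n) → H) where
  carrier := {a | DefV p v 𝒢 a ∧ ∀ y e, ¬ (y ∈ 𝒢 ∧ At e (p y)) → ∀ ξ, a y e ξ = 0}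
  add_mem' := by
    rintro a b ⟨ha, ha0⟩ ⟨hb, hb0⟩
    refine ⟨⟨fun z hz e he => ?_, fun y hy y' hy' e e' he he' ξ ξ' => ?_⟩, fun y e h ξ => ?_⟩
    · obtain ⟨D, G, h, η, l, hl⟩ := ha.tan z hz e he
      obtain ⟨η', l', hl'⟩ := (hb.tan z hz e he).rebase hp hv h
      refine ⟨D, G, h, η + η', l + l', fun ξ => ?_⟩
      show a z e ξ + b z e ξ = _
      rw [hl ξ, hl' ξ, map_add, add_smul, ← smul_add]
      congr 1
      abel
    · show ⟪a y e ξ + b y e ξ, _⟫_ℂ + ⟪_, a y' e' ξ' + b y' e' ξ'⟫_ℂ = 0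
      rw [inner_add_left, inner_add_right]
      have h1 := ha.skew y hy y' hy' e e' he he' ξ ξ'
      have h2 := hb.skew y hy y' hy' e e' he he' ξ ξ'
      linear_combination h1 + h2
    · show a y e ξ + b y e ξ = 0
      rw [ha0 y e h, hb0 y e h, add_zero]
  zero_mem' := by
    refine ⟨⟨fun z hz e he => ?_, fun y hy y' hy' e e' he he' ξ ξ' => ?_⟩, fun y e h ξ => rfl⟩
    · obtain ⟨e', D, G, h⟩ := hrep z hz
      refine ⟨_, _, h.change hp hv he, 0, 0, fun ξ => ?_⟩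
      rw [map_zero, zero_smul, add_zero, smul_zero]
      rfl
    · show ⟪(0 : H), _⟫_ℂ + ⟪_, (0 : H)⟫_ℂ = 0
      rw [inner_zero_left, inner_zero_right, add_zero]
  smul_mem' := by
    rintro r a ⟨ha, ha0⟩
    refine ⟨⟨fun z hz e he => ?_, fun y hy y' hy' e e' he he' ξ ξ' => ?_⟩, fun y e h ξ => ?_⟩
    · obtain ⟨D, G, h, η, l, hl⟩ := ha.tan z hz e he
      refine ⟨D, G, h, (r : ℂ) • η, (r : ℂ) * l, fun ξ => ?_⟩
      show r • a z e ξ = _
      rw [hl ξ, map_smul, mul_smul, ← smul_add, smul_comm, Complex.coe_smul]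
    · show ⟪r • a y e ξ, _⟫_ℂ + ⟪_, r • a y' e' ξ'⟫_ℂ = 0
      rw [← Complex.coe_smul, ← Complex.coe_smul, inner_smul_left, inner_smul_right,
        Complex.conj_ofReal, ← mul_add, ha.skew y hy y' hy' e e' he he' ξ ξ', mul_zero]
    · show r • a y e ξ = 0
      rw [ha0 y e h, smul_zero]

end

section
variable {n R m : ℕ} {X E Γ H : Type} [TopologicalSpace X] [ChartedSpace (Cm n) X]
  [IsManifold 𝓘(ℂ, Cm n) ω X] [TopologicalSpace E] [Group Γ] [MulAction Γ E]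
  [NormedAddCommGroup H] [InnerProductSpace ℂ H]
  {p : E → X} {v : E → Chart n X → (Fin R → Cm n) → H} {𝒢 : Set E} {U : Γ → (H →ₗᵢ[ℂ] H)}

lemma inv_mem (hinv : ∀ g : Γ, ∀ y ∈ 𝒢, g • y ∈ 𝒢) (g : Γ) {y : E} : g • y ∈ 𝒢 ↔ y ∈ 𝒢 :=
  ⟨fun h => by
    have := hinv g⁻¹ _ h
    rwa [inv_smul_smul] at this, fun h => hinv g y h⟩

/-- the translate of a deformation -/
theorem act_mem (hG : IsGalois Γ p) (hv : HForm n R m p H v)
    (hrep : ∀ z ∈ 𝒢, ∃ e D G, RepV p v z e D G)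
    (heq : ∀ (g : Γ) y e, At e (p y) → ∀ ξ, v (g • y) e ξ = U g (v y e ξ))
    (hinv : ∀ g : Γ, ∀ y ∈ 𝒢, g • y ∈ 𝒢) (g : Γ) {a : E → Chart n X → (Fin R → Cm n) → H}
    (ha : a ∈ defSub hG.cov hv hrep) :
    (fun y e ξ => U g (a (g⁻¹ • y) e ξ)) ∈ defSub hG.cov hv hrep := by
  obtain ⟨ha, ha0⟩ := ha
  refine ⟨⟨fun z hz e he => ?_, fun y hy y' hy' e e' he he' ξ ξ' => ?_⟩, fun y e h ξ => ?_⟩
  · have h1 := (ha.tan (g⁻¹ • z) ((inv_mem hinv g⁻¹).2 hz) e (by rw [p_smul hG]; exact he)).smul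
      hG heq g
    rwa [smul_inv_smul] at h1
  · have k1 : v y' e' ξ' = U g (v (g⁻¹ • y') e' ξ') := by
      have := heq g (g⁻¹ • y') e' (by rw [p_smul hG]; exact he') ξ'
      rwa [smul_inv_smul] at this
    have k2 : v y e ξ = U g (v (g⁻¹ • y) e ξ) := by
      have := heq g (g⁻¹ • y) e (by rw [p_smul hG]; exact he) ξ
      rwa [smul_inv_smul] at this
    show ⟪U g (a (g⁻¹ • y) e ξ), v y' e' ξ'⟫_ℂ + ⟪v y e ξ, U g (a (g⁻¹ • y') e' ξ')⟫_ℂ = 0
    rw [k1, k2, LinearIsometry.inner_map_map, LinearIsometry.inner_map_map]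
    exact ha.skew _ ((inv_mem hinv g⁻¹).2 hy) _ ((inv_mem hinv g⁻¹).2 hy') e e'
      (by rw [p_smul hG]; exact he) (by rw [p_smul hG]; exact he') ξ ξ'
  · show U g (a (g⁻¹ • y) e ξ) = 0
    rw [ha0 (g⁻¹ • y) e (fun h' => h ⟨(inv_mem hinv g⁻¹).1 h'.1, by rw [← p_smul hG g⁻¹]; exact h'.2⟩),
      map_zero]

/-- operators which agree on `v` agree on deformations -/
theorem agree (hp : IsCoveringMap p) (hv : HForm n R m p H v)
    {a : E → Chart n X → (Fin R → Cm n) → H} (ha : DefV p v 𝒢 a)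
    (ha0 : ∀ y e, ¬ (y ∈ 𝒢 ∧ At e (p y)) → ∀ ξ, a y e ξ = 0) (A B : H →L[ℂ] H)
    (hAB : ∀ y e, At e (p y) → ∀ ξ, A (v y e ξ) = B (v y e ξ)) (y : E) (e : Chart n X)
    (ξ : Fin R → Cm n) : A (a y e ξ) = B (a y e ξ) := by
  by_cases h : y ∈ 𝒢 ∧ At e (p y)
  · have h1 := (ha.tan y h.1 e h.2).ker hp hv (A - B) (by
      filter_upwards [at_ev hp h.2] with y' h' ξ
      rw [sub_apply, hAB y' e h', sub_self]) ξ
    rw [sub_apply] at h1
    exact sub_eq_zero.1 h1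
  · rw [ha0 y e h, map_zero, map_zero]

/-- the action of the group on the deformations -/
def actG (hG : IsGalois Γ p) (hv : HForm n R m p H v)
    (hrep : ∀ z ∈ 𝒢, ∃ e D G, RepV p v z e D G)
    (heq : ∀ (g : Γ) y e, At e (p y) → ∀ ξ, v (g • y) e ξ = U g (v y e ξ))
    (hinv : ∀ g : Γ, ∀ y ∈ 𝒢, g • y ∈ 𝒢) :
    Γ →* (defSub hG.cov hv hrep →ₗ[ℝ] defSub hG.cov hv hrep) where
  toFun g :=
    { toFun := fun a => ⟨_, act_mem hG hv hrep heq hinv g a.2⟩
      map_add' := fun a b => Subtype.ext (by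
        funext y e ξ
        exact (U g).map_add _ _)
      map_smul' := fun r a => Subtype.ext (by
        funext y e ξ
        show U g (r • a.1 (g⁻¹ • y) e ξ) = r • U g (a.1 (g⁻¹ • y) e ξ)
        rw [← Complex.coe_smul, ← Complex.coe_smul, map_smul]) }
  map_one' := by
    refine LinearMap.ext fun a => Subtype.ext ?_
    funext y e ξ
    show U 1 (a.1 ((1 : Γ)⁻¹ • y) e ξ) = a.1 y e ξ
    rw [inv_one, one_smul]
    exact agree hG.cov hv a.2.1 a.2.2 (U 1).toContinuousLinearMap (ContinuousLinearMap.id ℂ H)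
      (fun y e he ξ => by
        have := heq 1 y e he ξ
        rw [one_smul] at this
        exact this.symm) y e ξ
  map_mul' := fun g h => by
    refine LinearMap.ext fun a => Subtype.ext ?_
    funext y e ξ
    show U (g * h) (a.1 ((g * h)⁻¹ • y) e ξ) = U g (U h (a.1 (h⁻¹ • g⁻¹ • y) e ξ))
    rw [mul_inv_rev, mul_smul]
    exact agree hG.cov hv a.2.1 a.2.2 (U (g * h)).toContinuousLinearMap
      ((U g).toContinuousLinearMap.comp (U h).toContinuousLinearMap) (fun y e he ξ => by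
        have h1 := heq (g * h) y e he ξ
        have h2 := heq g (h • y) e (by rw [p_smul hG]; exact he) ξ
        rw [mul_smul, h2, heq h y e he ξ] at h1
        exact h1.symm) _ e ξ

end

end Vale.Agent.P284.H366.GB
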