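import Vale.Agent.P284.H366.G.L2

/-!
# P284 (helper366), module G2b: the space of deformations is finite dimensional
-/

open scoped Manifold ContDiff Topology InnerProductSpace ComplexConjugate
open Filter Set Metric Module

noncomputable section

set_option linter.unusedSectionVars false

namespace Vale.Agent.P284.H366.GB

open Vale.Agent.P272.K Vale.Agent.P284.H573 Vale.Agent.P284.H619 Vale.Agent.P284.H894
  Vale.Agent.P284.H894.G

section
variable {n : ℕ} {H : Type} [NormedAddCommGroup H] [InnerProductSpace ℂ H]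

/-- the tangent map of the cone over `G` -/
def Lam (G : Cm n → H) (w : Cm n) : (Cm n × ℂ) →L[ℂ] H :=
  (fderiv ℂ G w).comp (ContinuousLinearMap.fst ℂ (Cm n) ℂ) +
    (ContinuousLinearMap.snd ℂ (Cm n) ℂ).smulRight (G w)

lemma Lam_apply (G : Cm n → H) (w η : Cm n) (l : ℂ) :
    Lam G w (η, l) = fderiv ℂ G w η + l • G w := rfl

lemma Lam_cont [CompleteSpace H] {G : Cm n → H} {w : Cm n} (hG : AnalyticAt ℂ G w) :
    ContinuousAt (Lam G) w := by
  have h1 : ContinuousAt (fun w => fderiv ℂ G w) w := hG.fderiv.continuousAt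
  have h2 : ContinuousAt (fun w => (ContinuousLinearMap.snd ℂ (Cm n) ℂ).smulRight (G w)) w := by
    have h3 : Continuous fun x : H => (ContinuousLinearMap.snd ℂ (Cm n) ℂ).smulRight x :=
      (ContinuousLinearMap.smulRightL ℂ (Cm n × ℂ) H (ContinuousLinearMap.snd ℂ (Cm n) ℂ)).continuous
    exact h3.continuousAt.comp hG.continuousAt
  exact (h1.clm_comp continuousAt_const).add h2

end

section
variable {n R m : ℕ} {X E H : Type} [TopologicalSpace X] [ChartedSpace (Cm n) X]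
  [IsManifold 𝓘(ℂ, Cm n) ω X] [TopologicalSpace E] [NormedAddCommGroup H] [InnerProductSpace ℂ H]
  [CompleteSpace H]
  {p : E → X} {v : E → Chart n X → (Fin R → Cm n) → H} {𝒢 : Set E}

/-- a point of maximal rank -/
theorem exists_max (hne : 𝒢.Nonempty) (hrep : ∀ z ∈ 𝒢, ∃ e D G, RepV p v z e D G) :
    ∃ z ∈ 𝒢, ∃ e D G, RepV p v z e D G ∧ ∀ y ∈ 𝒢, ∀ e' D' G', RepV p v y e' D' G' →
      finrank ℂ (LinearMap.range (Lam G' (e' (p y)) : (Cm n × ℂ) →ₗ[ℂ] H)) ≤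
        finrank ℂ (LinearMap.range (Lam G (e (p z)) : (Cm n × ℂ) →ₗ[ℂ] H)) := by
  set S : Set ℕ := {d | ∃ z ∈ 𝒢, ∃ e D G, RepV p v z e D G ∧
    finrank ℂ (LinearMap.range (Lam G (e (p z)) : (Cm n × ℂ) →ₗ[ℂ] H)) = d} with hS
  have h1 : S.Nonempty := by
    obtain ⟨z, hz⟩ := hne
    obtain ⟨e, D, G, h⟩ := hrep z hz
    exact ⟨_, z, hz, e, D, G, h, rfl⟩
  have h2 : BddAbove S := by
    refine ⟨finrank ℂ (Cm n × ℂ), ?_⟩
    rintro d ⟨z, hz, e, D, G, h, rfl⟩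
    exact LinearMap.finrank_range_le _
  obtain ⟨z, hz, e, D, G, h, hd⟩ := Nat.sSup_mem h1 h2
  refine ⟨z, hz, e, D, G, h, fun y hy e' D' G' h' => ?_⟩
  rw [hd]
  exact le_csSup h2 ⟨y, hy, e', D', G', h', rfl⟩

/-- finitely many values of `v` detect the tangent vectors at `z` -/
theorem exists_probes (hp : IsCoveringMap p) (hv : HForm n R m p H v) (h𝒢 : IsOpen 𝒢) {z : E}
    (hz : z ∈ 𝒢) {e : Chart n X} {D : Cm n → (Fin R → Cm n) → ℂ} {G : Cm n → H}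
    (h : RepV p v z e D G) : ∃ (ι : Type) (_ : Fintype ι) (Y : ι → E),
      (∀ k, Y k ∈ 𝒢 ∧ RepV p v (Y k) e D G) ∧
      ∀ x : Cm n × ℂ, (∀ k, ⟪G (e (p (Y k))), Lam G (e (p z)) x⟫_ℂ = 0) →
        Lam G (e (p z)) x = 0 := by
  classical
  set w₀ := e (p z) with hw₀
  set T₀ : Submodule ℂ H := LinearMap.range (Lam G w₀ : (Cm n × ℂ) →ₗ[ℂ] H) with hT₀
  set N : Set E := {y | y ∈ 𝒢 ∧ RepV p v y e D G} with hN
  have hNn : N ∈ 𝓝 z := (h𝒢.eventually_mem hz).and (h.near hp hv)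
  set φ : E → Module.Dual ℂ T₀ := fun y =>
    ((innerSL ℂ (G (e (p y))) : H →L[ℂ] ℂ) : H →ₗ[ℂ] ℂ).comp T₀.subtype with hφ
  obtain ⟨s', hs', hspan⟩ := (Submodule.fg_span_iff_fg_span_finset_subset (R := ℂ) (φ '' N)).1
    (IsNoetherian.noetherian _)
  have hpre : ∀ f : {f // f ∈ s'}, ∃ y ∈ N, φ y = f.1 := fun f => hs' f.2
  choose Y hY hYφ using hpre
  refine ⟨{f // f ∈ s'}, inferInstance, Y, fun k => hY k, fun x hx => ?_⟩
  set t := Lam G w₀ x with ht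
  have htT : t ∈ T₀ := ⟨x, rfl⟩
  have hall : ∀ y ∈ N, ⟪G (e (p y)), t⟫_ℂ = 0 := by
    intro y hy
    have h1 : φ y ∈ Submodule.span ℂ (s' : Set (Module.Dual ℂ T₀)) := by
      rw [← hspan]
      exact Submodule.subset_span ⟨y, hy, rfl⟩
    have h2 : Submodule.span ℂ (s' : Set (Module.Dual ℂ T₀)) ≤
        LinearMap.ker (Module.Dual.eval ℂ T₀ ⟨t, htT⟩) := by
      rw [Submodule.span_le]
      intro f hf
      have h3 := hx ⟨f, hf⟩
      rw [SetLike.mem_coe, LinearMap.mem_ker]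
      show f ⟨t, htT⟩ = 0
      have h8 : f = φ (Y ⟨f, hf⟩) := (hYφ ⟨f, hf⟩).symm
      rw [h8]
      exact h3
    exact h2 h1
  have h4 : ∀ᶠ w in 𝓝 w₀, (innerSL ℂ t) (G w) = 0 := by
    rw [← ev_iff hp h.mem]
    filter_upwards [hNn] with y hy
    show ⟪t, G (e (p y))⟫_ℂ = 0
    rw [← inner_conj_symm, hall y hy, map_zero]
  have h5 : ∀ η, (innerSL ℂ t) (fderiv ℂ G w₀ η) = 0 := by
    intro η
    have h3 : fderiv ℂ (fun w => (innerSL ℂ t) (G w)) w₀ = (innerSL ℂ t).comp (fderiv ℂ G w₀) :=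
      ((innerSL ℂ t).hasFDerivAt.comp w₀ h.Gan.differentiableAt.hasFDerivAt).fderiv
    have h4' : fderiv ℂ (fun w => (innerSL ℂ t) (G w)) w₀ = 0 := by
      have h5 : (fun w => (innerSL ℂ t) (G w)) =ᶠ[𝓝 w₀] fun _ => 0 := h4
      rw [h5.fderiv_eq]
      simp
    exact congrArg (fun L : Cm n →L[ℂ] ℂ => L η) (h3.symm.trans h4')
  have h6 : ⟪t, t⟫_ℂ = 0 := by
    have h7 : (innerSL ℂ t) (Lam G w₀ x) = 0 := by
      obtain ⟨η, l⟩ := x
      rw [Lam_apply, map_add, map_smul, h5 η, h4.self_of_nhds, smul_zero, add_zero]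
    exact h7
  exact inner_self_eq_zero.1 h6

/-- and at the nearby points, if the rank is maximal at `z` -/
theorem probes_near (hp : IsCoveringMap p) (hv : HForm n R m p H v) (h𝒢 : IsOpen 𝒢) {z : E}
    (hz : z ∈ 𝒢) {e : Chart n X} {D : Cm n → (Fin R → Cm n) → ℂ} {G : Cm n → H}
    (h : RepV p v z e D G) (hmax : ∀ y ∈ 𝒢, ∀ e' D' G', RepV p v y e' D' G' →
      finrank ℂ (LinearMap.range (Lam G' (e' (p y)) : (Cm n × ℂ) →ₗ[ℂ] H)) ≤
        finrank ℂ (LinearMap.range (Lam G (e (p z)) : (Cm n × ℂ) →ₗ[ℂ] H)))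
    {ι : Type} [Fintype ι] {Y : ι → E}
    (hY : ∀ x : Cm n × ℂ, (∀ k, ⟪G (e (p (Y k))), Lam G (e (p z)) x⟫_ℂ = 0) →
        Lam G (e (p z)) x = 0) :
    ∀ᶠ y in 𝓝 z, ∀ x : Cm n × ℂ, (∀ k, ⟪G (e (p (Y k))), Lam G (e (p y)) x⟫_ℂ = 0) →
        Lam G (e (p y)) x = 0 := by
  set w₀ := e (p z) with hw₀
  set P : H →L[ℂ] (ι → ℂ) := ContinuousLinearMap.pi fun k => innerSL ℂ (G (e (p (Y k)))) with hP
  obtain ⟨V₀, hV₀⟩ := Submodule.exists_isCompl
    (LinearMap.ker (Lam G w₀ : (Cm n × ℂ) →ₗ[ℂ] H))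
  set Q : Cm n → (V₀ →L[ℂ] (ι → ℂ)) := fun w => P.comp ((Lam G w).comp V₀.subtypeL) with hQ
  have hQ0 : Function.Injective (Q w₀) := by
    rw [injective_iff_map_eq_zero]
    intro x hx
    have h1 : Lam G w₀ x.1 = 0 := hY x.1 fun k => congrFun hx k
    have h2 : x.1 ∈ LinearMap.ker (Lam G w₀ : (Cm n × ℂ) →ₗ[ℂ] H) ⊓ V₀ := ⟨h1, x.2⟩
    rw [hV₀.inf_eq_bot, Submodule.mem_bot] at h2
    exact Subtype.ext h2
  have hQc : ContinuousAt Q w₀ :=
    continuousAt_const.clm_comp ((Lam_cont h.Gan).clm_comp continuousAt_const)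
  have hinj : ∀ᶠ w in 𝓝 w₀, Function.Injective (Q w) :=
    hQc.eventually (ContinuousLinearMap.isOpen_injective.eventually_mem hQ0)
  have hfr : finrank ℂ V₀ = finrank ℂ (LinearMap.range (Lam G w₀ : (Cm n × ℂ) →ₗ[ℂ] H)) := by
    have h1 := Submodule.finrank_add_eq_of_isCompl hV₀
    have h2 := LinearMap.finrank_range_add_finrank_ker (Lam G w₀ : (Cm n × ℂ) →ₗ[ℂ] H)
    omega
  filter_upwards [(ev_iff hp h.mem).2 hinj, h𝒢.eventually_mem hz, h.near hp hv]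
    with y k1 k2 k3 x hx
  have h1 := hmax y k2 e D G k3
  set L : (Cm n × ℂ) →ₗ[ℂ] H := (Lam G (e (p y)) : (Cm n × ℂ) →ₗ[ℂ] H) with hL
  have hLi : Function.Injective (L.comp V₀.subtype) := by
    rw [injective_iff_map_eq_zero]
    intro x hx
    have h2 : Q (e (p y)) x = 0 := by
      show P (Lam G (e (p y)) x.1) = 0
      have h3 : Lam G (e (p y)) x.1 = 0 := hx
      rw [h3, map_zero]
    exact (injective_iff_map_eq_zero _).1 k1 x h2
  have h4 : LinearMap.range (L.comp V₀.subtype) = LinearMap.range L := by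
    refine Submodule.eq_of_le_of_finrank_le (LinearMap.range_comp_le_range _ _) ?_
    rw [LinearMap.finrank_range_of_inj hLi, hfr]
    exact h1
  obtain ⟨x', hx'⟩ : L x ∈ LinearMap.range (L.comp V₀.subtype) := by rw [h4]; exact ⟨x, rfl⟩
  have h5 : Lam G (e (p y)) x'.1 = Lam G (e (p y)) x := hx'
  have h6 : Q (e (p y)) x' = 0 := by
    funext k
    show ⟪G (e (p (Y k))), Lam G (e (p y)) x'.1⟫_ℂ = 0
    rw [h5]
    exact hx k
  have h7 : x' = 0 := (injective_iff_map_eq_zero _).1 k1 x' h6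
  rw [← h5, h7]
  exact map_zero _

/-- **The space of deformations is finite dimensional.** -/
theorem finDim [PreconnectedSpace E] (hp : IsCoveringMap p) (hv : HForm n R m p H v)
    (hrep : ∀ z ∈ 𝒢, ∃ e D G, RepV p v z e D G) (h𝒢 : IsOpen 𝒢) (hne : 𝒢.Nonempty) :
    FiniteDimensional ℝ (defSub hp hv hrep) := by
  obtain ⟨z, hz, e, D, G, h, hmax⟩ := exists_max hne hrep
  obtain ⟨ι, _, Y, hYr, hY⟩ := exists_probes hp hv h𝒢 hz h
  have hnear := probes_near hp hv h𝒢 hz h hmax hY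
  choose ξ hξ using fun k => (hYr k).2.D0
  have hval : ∀ a : defSub hp hv hrep, ∀ k,
      a.1 (Y k) e (ξ k) ∈ LinearMap.range (Lam G (e (p (Y k))) : (Cm n × ℂ) →ₗ[ℂ] H) := by
    intro a k
    obtain ⟨η, l, hl⟩ := (a.2.1.tan (Y k) (hYr k).1 e (hYr k).2.mem).rebase hp hv (hYr k).2
    refine ⟨D (e (p (Y k))) (ξ k) • (η, l), ?_⟩
    rw [map_smul, hl (ξ k)]
    rfl
  let Φ : defSub hp hv hrep →ₗ[ℝ]
      (∀ k, (LinearMap.range (Lam G (e (p (Y k))) : (Cm n × ℂ) →ₗ[ℂ] H))) :=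
    { toFun := fun a k => ⟨a.1 (Y k) e (ξ k), hval a k⟩
      map_add' := fun a b => by funext k; exact Subtype.ext rfl
      map_smul' := fun r a => by funext k; exact Subtype.ext rfl }
  have hfin : ∀ k, FiniteDimensional ℝ
      (LinearMap.range (Lam G (e (p (Y k))) : (Cm n × ℂ) →ₗ[ℂ] H)) := fun k =>
    Module.Finite.trans ℂ _
  refine FiniteDimensional.of_injective Φ ?_
  rw [injective_iff_map_eq_zero]
  intro a ha
  have ha0 : ∀ k, a.1 (Y k) e (ξ k) = 0 := fun k => congrArg Subtype.val (congrFun ha k)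
  -- `a` vanishes near `z`
  have hloc : ∀ᶠ y in 𝓝 z, y ∈ 𝒢 ∧ At e (p y) ∧ ∀ ξ', a.1 y e ξ' = 0 := by
    filter_upwards [hnear, h𝒢.eventually_mem hz, h.near hp hv] with y k1 k2 k3
    refine ⟨k2, k3.mem, ?_⟩
    obtain ⟨η, l, hl⟩ := (a.2.1.tan y k2 e k3.mem).rebase hp hv k3
    obtain ⟨ξ₁, hξ₁⟩ := k3.D0
    have h5 : Lam G (e (p y)) (η, l) = 0 := by
      refine k1 (η, l) fun k => ?_
      have h6 := a.2.1.skew (Y k) (hYr k).1 y k2 e e (hYr k).2.mem k3.mem (ξ k) ξ₁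
      rw [ha0 k, inner_zero_left, zero_add, (hYr k).2.eq.self_of_nhds, hl ξ₁, inner_smul_left,
        inner_smul_right] at h6
      have h7 : (starRingEnd ℂ) (D (e (p (Y k))) (ξ k)) ≠ 0 := (map_ne_zero _).2 (hξ k)
      have h8 := (mul_eq_zero.1 h6).resolve_left h7
      exact (mul_eq_zero.1 h8).resolve_left hξ₁
    intro ξ'
    rw [hl ξ', ← Lam_apply, h5, smul_zero]
  -- `a` vanishes everywhere
  refine Subtype.ext ?_
  funext y₁ e₁ ξ₁
  show a.1 y₁ e₁ ξ₁ = 0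
  by_cases hy₁ : y₁ ∈ 𝒢 ∧ At e₁ (p y₁)
  · have h9 := ident hp hv (innerSL ℂ (a.1 y₁ e₁ ξ₁)) (y₀ := z) (by
      filter_upwards [hloc] with y hy e' he' ξ'
      have h10 : ∀ ξ', ⟪a.1 y₁ e₁ ξ₁, v y e ξ'⟫_ℂ = 0 := fun ξ' => by
        have h11 := a.2.1.skew y₁ hy₁.1 y hy.1 e₁ e hy₁.2 hy.2.1 ξ₁ ξ'
        rwa [hy.2.2 ξ', inner_zero_right, add_zero] at h11
      show ⟪a.1 y₁ e₁ ξ₁, v y e' ξ'⟫_ℂ = 0
      rw [hv.change y e' e he' hy.2.1]
      exact h10 _)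
    have h12 := (a.2.1.tan y₁ hy₁.1 e₁ hy₁.2).ker hp hv (innerSL ℂ (a.1 y₁ e₁ ξ₁)) (by
      filter_upwards [at_ev hp hy₁.2] with y hy ξ'
      exact h9 y e₁ hy ξ') ξ₁
    exact inner_self_eq_zero.1 h12
  · exact a.2.2 y₁ e₁ hy₁ ξ₁

end

end Vale.Agent.P284.H366.GB
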