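import Vale.Agent.P284.H366.G.L3

/-!
# P284 (helper366), module G2b: a subgroup of finite index fixes the deformations
-/

open scoped Manifold ContDiff Topology InnerProductSpace ComplexConjugate
open Filter Set Metric

noncomputable section

set_option linter.unusedSectionVars false

namespace Vale.Agent.P284.H366.GB

open Vale.Agent.P272.K Vale.Agent.P284.H894 Vale.Agent.P284.H894.G Vale.Agent.P284.H573
  Vale.Agent.P284.H619 Vale.Agent.P284.H378 Vale.Agent.P284.H478.G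

/-- representatives of a finite image -/
theorem exists_reps {Γ M : Type*} [Group Γ] [Monoid M] (ρ : Γ →* M) (K : Subgroup Γ)
    (h : (ρ '' (K : Set Γ)).Finite) : ∃ A : Set Γ, A.Finite ∧ ∀ g ∈ K, ∃ f ∈ A,
      f⁻¹ * g ∈ K ⊓ ρ.ker := by
  choose! r hr hρ using fun (x : M) (hx : x ∈ ρ '' (K : Set Γ)) => hx
  refine ⟨r '' (ρ '' (K : Set Γ)), h.image r, fun g hg => ?_⟩
  have hx : ρ g ∈ ρ '' (K : Set Γ) := ⟨g, hg, rfl⟩
  refine ⟨r (ρ g), ⟨ρ g, hx, rfl⟩, K.mul_mem (K.inv_mem (hr _ hx)) hg, ?_⟩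
  show ρ ((r (ρ g))⁻¹ * g) = 1
  calc ρ ((r (ρ g))⁻¹ * g) = ρ (r (ρ g))⁻¹ * ρ g := map_mul _ _ _
    _ = ρ (r (ρ g))⁻¹ * ρ (r (ρ g)) := by rw [hρ _ hx]
    _ = 1 := by rw [← map_mul, inv_mul_cancel, map_one]

/-- **G2b** -/
theorem g2bStmt : G2bStmt := by
  intro n R m X _ _ _ _ E Γ _ _ _ _ p hG K hK hfr H _ _ _ v U 𝒢 hv heq h𝒢 hne hinv hrep
  classical
  have := finDim hG.cov hv hrep h𝒢 hne
  have hfin := hfr (defSub hG.cov hv hrep) (actG hG hv hrep heq hinv)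
  refine ⟨K ⊓ (actG hG hv hrep heq hinv).ker, inf_le_left, inferInstance,
    exists_reps _ K hfin, fun a ha κ hκ y hy e he ξ => ?_⟩
  set a' : E → Chart n X → (Fin R → Cm n) → H := fun y e ξ =>
    if y ∈ 𝒢 ∧ At e (p y) then a y e ξ else 0 with ha'
  have haa : ∀ y ∈ 𝒢, ∀ e, At e (p y) → ∀ ξ, a' y e ξ = a y e ξ := fun y hy e he ξ => by
    simp only [ha', if_pos (⟨hy, he⟩ : y ∈ 𝒢 ∧ At e (p y))]
  have hmem : a' ∈ defSub hG.cov hv hrep := by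
    refine ⟨⟨fun z hz e he => ?_, fun y hy y' hy' e e' he he' ξ ξ' => ?_⟩, fun y e h ξ => ?_⟩
    · have : a' z e = a z e := funext fun ξ => haa z hz e he ξ
      rw [this]
      exact ha.tan z hz e he
    · rw [haa y hy e he, haa y' hy' e' he']
      exact ha.skew y hy y' hy' e e' he he' ξ ξ'
    · simp only [ha', if_neg h]
  have h1 : actG hG hv hrep heq hinv κ = 1 := hκ.2
  have h2 := congrArg (fun L : defSub hG.cov hv hrep →ₗ[ℝ] defSub hG.cov hv hrep =>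
    (L ⟨a', hmem⟩).1 (κ • y) e ξ) h1
  have h3 : U κ (a' (κ⁻¹ • κ • y) e ξ) = a' (κ • y) e ξ := h2
  rw [inv_smul_smul, haa y hy e he, haa (κ • y) (hinv κ y hy) e
    (by rw [p_smul hG]; exact he)] at h3
  exact h3.symm

section
variable {n q r k s m : ℕ} {X E Γ W H : Type} [TopologicalSpace X] [ChartedSpace (Cm n) X]
  [IsManifold 𝓘(ℂ, Cm n) ω X] [TopologicalSpace E] [Group Γ] [MulAction Γ E]
  [NormedAddCommGroup W] [InnerProductSpace ℂ W] [NormedAddCommGroup H] [InnerProductSpace ℂ H]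
  {p : E → X} {F : E → Cm q} {v : E → Chart n X → (Fin (q + r) → Cm n) → H}
  {U : Γ → (H →ₗᵢ[ℂ] H)} {π : Γ →* (W ≃ₗᵢ[ℂ] W)} {Θ : E → Chart n X → (Cm n →L[ℂ] W)}
  {N : Cm k →L[ℂ] Cm q} {𝒢 : Set E} {a : E → Chart n X → (Fin (q + r) → Cm n) → H}

/-- the deformations from the leaf charts: `a` satisfies the same change rule as `v` and is tangent in
one leaf chart at each point -/
theorem DefV.of_LC (hp : IsCoveringMap p) (hv : HForm n (q + r) m p H v)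
    (hch : ∀ y ∈ 𝒢, ∀ e e' : Chart n X, At e (p y) → At e' (p y) → ∀ ξ, a y e ξ =
      a y e' fun i => fderiv ℂ (fun z => e' (e.symm z)) (e (p y)) (ξ i))
    (htan : ∀ z ∈ 𝒢, ∃ (e : Chart n X) (b : Cm n → Cm (q + r)) (F0 : Cm (q + r) → W)
      (β : Cm (q + r) → Cm s) (γ : Cm s → H) (τ : Cm s → Cm q) (ζ : Cm s) (l : ℂ),
      LC p F m v U π Θ N z e b F0 β γ τ ∧ ∀ ξ, a z e ξ =
        (Matrix.of fun i j => fderiv ℂ b (e (p z)) (ξ j) i).det ^ m •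
        (fderiv ℂ γ (β (b (e (p z)))) ζ + l • γ (β (b (e (p z))))))
    (hskew : ∀ y ∈ 𝒢, ∀ y' ∈ 𝒢, ∀ e e' : Chart n X, At e (p y) → At e' (p y') → ∀ ξ ξ',
      ⟪a y e ξ, v y' e' ξ'⟫_ℂ + ⟪v y e ξ, a y' e' ξ'⟫_ℂ = 0) : DefV p v 𝒢 a := by
  refine ⟨fun z hz e' he' => ?_, hskew⟩
  obtain ⟨e, b, F0, β, γ, τ, ζ, l, h, hl⟩ := htan z hz
  exact (TanV.of_LC h ζ l hl).change hp hv he' fun ξ => hch z hz e' e he' h.mem ξ

end

end Vale.Agent.P284.H366.GB
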