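import Vale.Agent.P284.H478.G.S

/-!
# P284 (helper366), target G, module G2b: statement

`RepV`: `v = D(ξ) G` near `z`. `DefV`: `a` is an infinitesimal deformation of `v` over `𝒢`, of
infinitesimally isometric type (only pointwise conditions). `G2bStmt`: if all the finite dimensional
representations of `Γ` are finite on `K`, then a subgroup of finite index of `K` fixes all the
deformations.
-/

open scoped Manifold ContDiff Topology InnerProductSpace ComplexConjugate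
open Filter Set Metric

noncomputable section

set_option linter.unusedSectionVars false

namespace Vale.Agent.P284.H366.GB

open Vale.Agent.P272.K Vale.Agent.P284.H894 Vale.Agent.P284.H894.G Vale.Agent.P284.H894.V
  Vale.Agent.P284.H894.W Vale.Agent.P284.H573 Vale.Agent.P284.H213.Grp Vale.Agent.P284.H395
  Vale.Agent.P284.H619 Vale.Agent.P284.H625 Vale.Agent.P284.H378 Vale.Agent.P284.H478.G

section
variable {n R : ℕ} {X E H : Type} [TopologicalSpace X] [ChartedSpace (Cm n) X]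
  [TopologicalSpace E] [NormedAddCommGroup H] [InnerProductSpace ℂ H]

/-- a local representation of `v` near `z` -/
structure RepV (p : E → X) (v : E → Chart n X → (Fin R → Cm n) → H) (z : E) (e : Chart n X)
    (D : Cm n → (Fin R → Cm n) → ℂ) (G : Cm n → H) : Prop where
  mem : At e (p z)
  Gan : AnalyticAt ℂ G (e (p z))
  G0 : G (e (p z)) ≠ 0
  D0 : ∃ ξ, D (e (p z)) ξ ≠ 0
  eq : ∀ᶠ y in 𝓝 z, ∀ ξ, v y e ξ = D (e (p y)) ξ • G (e (p y))

/-- `t` is a tangent vector of the family of the vectors `v` at `z` (in the chart `e`) -/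
def TanV (p : E → X) (v : E → Chart n X → (Fin R → Cm n) → H) (z : E) (e : Chart n X)
    (t : (Fin R → Cm n) → H) : Prop :=
  ∃ (D : Cm n → (Fin R → Cm n) → ℂ) (G : Cm n → H), RepV p v z e D G ∧
    ∃ (η : Cm n) (l : ℂ), ∀ ξ, t ξ = D (e (p z)) ξ • (fderiv ℂ G (e (p z)) η + l • G (e (p z)))

/-- an infinitesimal deformation of `v` over `𝒢` -/
structure DefV (p : E → X) (v : E → Chart n X → (Fin R → Cm n) → H) (𝒢 : Set E)
    (a : E → Chart n X → (Fin R → Cm n) → H) : Prop where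
  tan : ∀ z ∈ 𝒢, ∀ e : Chart n X, At e (p z) → TanV p v z e (a z e)
  skew : ∀ y ∈ 𝒢, ∀ y' ∈ 𝒢, ∀ e e' : Chart n X, At e (p y) → At e' (p y') → ∀ ξ ξ',
    ⟪a y e ξ, v y' e' ξ'⟫_ℂ + ⟪v y e ξ, a y' e' ξ'⟫_ℂ = 0

end

/-- **G2b** -/
def G2bStmt : Prop :=
  ∀ (n R m : ℕ) (X : Type) [TopologicalSpace X] [T2Space X] [ChartedSpace (Cm n) X]
    [IsManifold 𝓘(ℂ, Cm n) ω X] (E Γ : Type) [TopologicalSpace E] [ConnectedSpace E] [Group Γ]
    [MulAction Γ E] (p : E → X), IsGalois Γ p →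
    ∀ (K : Subgroup Γ), K.Normal → FinRepIn Γ K →
    ∀ (H : Type) [NormedAddCommGroup H] [InnerProductSpace ℂ H] [CompleteSpace H]
      (v : E → Chart n X → (Fin R → Cm n) → H) (U : Γ → (H →ₗᵢ[ℂ] H)) (𝒢 : Set E),
      HForm n R m p H v → (∀ (g : Γ) y e, At e (p y) → ∀ ξ, v (g • y) e ξ = U g (v y e ξ)) →
      IsOpen 𝒢 → 𝒢.Nonempty → (∀ g : Γ, ∀ y ∈ 𝒢, g • y ∈ 𝒢) →
      (∀ z ∈ 𝒢, ∃ e D G, RepV p v z e D G) →
    ∃ K' : Subgroup Γ, K' ≤ K ∧ K'.Normal ∧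
      (∃ A : Set Γ, A.Finite ∧ ∀ g ∈ K, ∃ f ∈ A, f⁻¹ * g ∈ K') ∧
      ∀ a, DefV p v 𝒢 a → ∀ κ ∈ K', ∀ y ∈ 𝒢, ∀ e, At e (p y) → ∀ ξ,
        a (κ • y) e ξ = U κ (a y e ξ)

section
variable {n q r k s m : ℕ} {X E Γ W H : Type} [TopologicalSpace X] [ChartedSpace (Cm n) X]
  [TopologicalSpace E] [Group Γ] [MulAction Γ E]
  [NormedAddCommGroup W] [InnerProductSpace ℂ W] [NormedAddCommGroup H] [InnerProductSpace ℂ H]
  {p : E → X} {F : E → Cm q} {v : E → Chart n X → (Fin (q + r) → Cm n) → H}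
  {U : Γ → (H →ₗᵢ[ℂ] H)} {π : Γ →* (W ≃ₗᵢ[ℂ] W)} {Θ : E → Chart n X → (Cm n →L[ℂ] W)}
  {N : Cm k →L[ℂ] Cm q} {z : E} {e : Chart n X} {b : Cm n → Cm (q + r)}
  {F0 : Cm (q + r) → W} {β : Cm (q + r) → Cm s} {γ : Cm s → H} {τ : Cm s → Cm q}

/-- a surjective linear map has a nonzero determinant on some frame -/
theorem exists_det {R : ℕ} {L : Cm n →L[ℂ] Cm R} (hL : Function.Surjective L) :
    ∃ ξ : Fin R → Cm n, (Matrix.of fun i j => L (ξ j) i).det ≠ 0 := by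
  choose ξ hξ using fun j : Fin R => hL (Pi.single j 1)
  refine ⟨ξ, ?_⟩
  have : (Matrix.of fun i j => L (ξ j) i) = (1 : Matrix (Fin R) (Fin R) ℂ) := by
    ext i j
    show L (ξ j) i = _
    rw [hξ, Pi.single_apply, Matrix.one_apply]
  rw [this, Matrix.det_one]
  exact one_ne_zero

/-- leaf charts give representations -/
theorem RepV.of_LC (h : LC p F m v U π Θ N z e b F0 β γ τ) :
    RepV p v z e (fun w ξ => (Matrix.of fun i j => fderiv ℂ b w (ξ j) i).det ^ m)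
      (fun w => γ (β (b w))) := by
  refine ⟨h.mem, ?_, h.imm.1, ?_, h.v_eq⟩
  · exact (h.γan.comp h.βan).comp h.ban
  · obtain ⟨ξ, hξ⟩ := exists_det h.bsurj
    exact ⟨ξ, pow_ne_zero m hξ⟩

/-- tangent vectors in leaf charts -/
theorem TanV.of_LC (h : LC p F m v U π Θ N z e b F0 β γ τ) {t : (Fin (q + r) → Cm n) → H}
    (ζ : Cm s) (l : ℂ)
    (ht : ∀ ξ, t ξ = (Matrix.of fun i j => fderiv ℂ b (e (p z)) (ξ j) i).det ^ m •
      (fderiv ℂ γ (β (b (e (p z)))) ζ + l • γ (β (b (e (p z)))))) : TanV p v z e t := by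
  refine ⟨_, _, RepV.of_LC h, ?_⟩
  obtain ⟨x, hx⟩ := h.βsurj ζ
  obtain ⟨η, hη⟩ := h.bsurj x
  refine ⟨η, l, fun ξ => ?_⟩
  rw [ht ξ]
  have h1 : fderiv ℂ (fun w => γ (β (b w))) (e (p z)) η = fderiv ℂ γ (β (b (e (p z)))) ζ := by
    have h2 : HasFDerivAt (fun w => γ (β (b w))) ((fderiv ℂ γ (β (b (e (p z))))).comp
        ((fderiv ℂ β (b (e (p z)))).comp (fderiv ℂ b (e (p z))))) (e (p z)) :=
      h.γan.differentiableAt.hasFDerivAt.comp (e (p z))
        (h.βan.differentiableAt.hasFDerivAt.comp (e (p z)) h.ban.differentiableAt.hasFDerivAt)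
    rw [h2.fderiv, ContinuousLinearMap.comp_apply, ContinuousLinearMap.comp_apply, hη, hx]
  rw [h1]

end

end Vale.Agent.P284.H366.GB
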